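-- RD-BASE 896190f9904dc0601768160770493aca1e49c461
import Vale.Agent.P028.MathlibUsed
import Vale.Agent.P028.RD.H669.NewRow
attribute [-instance] ProperSMul.toContinuousSMul IsTopologicalTorsor.toContinuousSMul IdemSemiring.toCanonicallyOrderedAdd IdemSemiring.toMulLeftMono IdemSemiring.toMulRightMono AddQuantale.instAddLeftMono AddQuantale.instAddRightMono Quantale.instMulLeftMono Quantale.instMulRightMono FiniteDimensional.rclike_to_real IsScalarTower.complexToReal FiniteDimensional.complexToReal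

/-!
# Rows with the weight `exp W` of the partners, at one stage and over the paying phases
-/

namespace Vale.P028.SK

open Finset CF RN H669 RK

variable {g : Cfg}

open Classical in
/-- **one stage**: the partners with the weight `exp W` -/
theorem row_EW (hJ : JsOK g.K g.Js) (hX : g.Js ≤ g.X) (hV : g.V ⊆ Icc 1 (N g)) {c1 c : ℝ}
    (h1 : 0 < c1) (h1e : c1 * Real.exp 24 ≤ 1) (hc : 0 < c) (hc1 : c ≤ 1)
    (hz : 4 ≤ c1 * zs g) {x : ℕ} (hx : x ∈ g.V) {i : ℕ} {Y : Finset ℕ} {w : ℕ → ℝ} {C₀ : ℝ}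
    (hYV : Y ⊆ g.V) (hY : ∀ y ∈ Y, y ∈ NT.cell g.V (f g) (thr g) (N g) (z g i) x)
    (hw : ∀ y ∈ Y, 0 ≤ w y) (hC0 : 0 ≤ C₀)
    (hC : ∀ m, ∑ y ∈ Y.filter (fun y => M g i y = m), w y ≤ C₀) :
    ∑ y ∈ Y, Wt g i y *
      (Real.exp (RK.W (fun k => uw g y k = true) (muw g c1 y) (N g - z g i)) * w y) ≤
      C₀ * (7 / 4) := by
  have H := sys_base hJ hX hV h1 h1e hc hc1 hz (Subset.refl g.V) hx
  have hD := Dm_one (π := wn g x) (wn_sum hx) (wo g x)
  have h2 := cE_exp_W_le H.π_nonneg H.π_one H.μ_nonneg H.μ_le H.ε_small H.dev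
    (show N g - z g i ≤ N g by omega) (σ := fun _ => 1) (fun _ => zero_le_one) (wo g x)
  have h3 := out_row_G (zs_le_z hJ hX i) hx Y hYV hY hw
    (Φ := fun v => Real.exp (RK.W (dvw (fun _ => 0) v) (muw g c1 x) (N g - z g i)))
    (fun _ => (Real.exp_pos _).le)
  have e2 : ∑ y ∈ Y, Wt g i y *
      (Real.exp (RK.W (fun k => uw g y k = true) (muw g c1 y) (N g - z g i)) * w y) =
      ∑ y ∈ Y, Wt g i y * (w y *
        Real.exp (RK.W (dvw (fun _ => 0) (hbw g i y x)) (muw g c1 x) (N g - z g i))) := by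
    refine sum_congr rfl fun y hy => ?_
    rw [W_hbw (hY y hy) c1 le_rfl]
    ring
  rw [e2]
  refine h3.trans ?_
  have h4 : cE (wn g x) (N g - z g i)
      (fun v => (∑ y ∈ Y.filter (fun y => hbw g i y x = v), w y) *
        Real.exp (RK.W (dvw (fun _ => 0) v) (muw g c1 x) (N g - z g i))) (wo g x) ≤
      cE (wn g x) (N g - z g i) (fun v => C₀ *
        (Real.exp (RK.W (dvw (fun _ => 0) v) (muw g c1 x) (N g - z g i)) * (1 : ℝ) ^ 3))
        (wo g x) := by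
    refine cE_mono (wn_nonneg x) (fun v => ?_) _
    rw [one_pow, mul_one]
    exact mul_le_mul_of_nonneg_right (fib_hbw (zs_le_z hJ hX i) hYV hY hw hC0 hC v)
      (Real.exp_pos _).le
  refine h4.trans ?_
  have e3 : cE (wn g x) (N g - z g i) (fun v => C₀ *
        (Real.exp (RK.W (dvw (fun _ => 0) v) (muw g c1 x) (N g - z g i)) * (1 : ℝ) ^ 3))
        (wo g x) = C₀ * cE (wn g x) (N g - z g i) (fun v =>
        Real.exp (RK.W (dvw (fun _ => 0) v) (muw g c1 x) (N g - z g i)) * (1 : ℝ) ^ 3)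
        (wo g x) := by
    unfold cE
    rw [mul_sum]
    exact sum_congr rfl fun v _ => by beta_reduce; ring
  rw [e3]
  exact mul_le_mul_of_nonneg_left (h2.trans hD) hC0

variable {x : ℕ} {I : Finset ℕ} {Y : ℕ → Finset ℕ} {w : ℕ → ℕ → ℝ} {C₀ : ℝ}

open Classical in
/-- **THE NEW ROW in numbers**, phases which pay and the last phase, with the weight `exp W` of
the partners -/
theorem new_row_num1W (hJ : JsOK g.K g.Js) (hX : g.Js ≤ g.X) (hV : g.V ⊆ Icc 1 (N g)) {c1 c : ℝ}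
    (h1 : 0 < c1) (h1e : c1 * Real.exp 24 ≤ 1) (hc : 0 < c) (hc1 : c ≤ 1)
    (hz : 4 ≤ c1 * zs g) (hx : x ∈ g.V) (h : RowI g x I Y w C₀)
    (hp : ∀ i ∈ I, Pyw g c1 x (N g - z g i) ∨ ∀ t ∈ NwP g x, t ≤ N g - z g i) :
    ∑ i ∈ I, Vt (c * c1 / 8) (Pyw g c1 x) (NwP g x) (N g - z g i) *
      ∑ y ∈ Y i, Wt g i y *
        (Real.exp (RK.W (fun k => uw g y k = true) (muw g c1 y) (N g - z g i)) * w i y) ≤
      (1 / (c * c1 / 8) + 1) * (C₀ * (7 / 4)) := by
  have H := sys_base hJ hX hV h1 h1e hc hc1 hz (Subset.refl g.V) hx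
  have hκ0 := H.κ_pos
  have hκ1 := H.κ_le
  set κ := c * c1 / 8 with hκ
  have hV0 : ∀ a, 0 ≤ Vt κ (Pyw g c1 x) (NwP g x) a := fun a => (Vt_bounds hκ0.le hκ1 a).1
  have hE : ∀ i ∈ I, ∑ y ∈ Y i, Wt g i y *
      (Real.exp (RK.W (fun k => uw g y k = true) (muw g c1 y) (N g - z g i)) * w i y) ≤
      C₀ * (7 / 4) := fun i hi =>
    row_EW hJ hX hV h1 h1e hc hc1 hz hx (h.sub i hi) (h.cell i hi) (h.nonneg i hi) h.C0_nonneg
      (h.fib i hi)
  have h2 := row_pay (Pay := Pyw g c1 x) hκ0 hκ1 (NwP g x)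
  have h3 := row_last (Pay := Pyw g c1 x) hκ0 hκ1 (NwP g x)
  have h4 : ∑ a ∈ (NwP g x).filter (fun a => Pyw g c1 x a ∨ ∀ t ∈ NwP g x, t ≤ a),
      Vt κ (Pyw g c1 x) (NwP g x) a ≤ 1 / κ + 1 := by
    refine le_trans ?_ (add_le_add h2 h3)
    rw [sum_filter, sum_filter, sum_filter, ← sum_add_distrib]
    refine sum_le_sum fun i _ => ?_
    have := hV0 i
    by_cases hp : Pyw g c1 x i
    · rw [if_pos (Or.inl hp), if_pos hp]
      split_ifs <;> linarith
    · by_cases hl : ∀ t ∈ NwP g x, t ≤ i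
      · rw [if_pos (Or.inr hl), if_neg hp, if_pos hl]
        linarith
      · rw [if_neg (by tauto), if_neg hp, if_neg hl]
        linarith
  have hC : 0 ≤ C₀ * (7 / 4) := mul_nonneg h.C0_nonneg (by norm_num)
  calc _ ≤ ∑ i ∈ I, Vt κ (Pyw g c1 x) (NwP g x) (N g - z g i) * (C₀ * (7 / 4)) :=
        sum_le_sum fun i hi => mul_le_mul_of_nonneg_left (hE i hi) (hV0 _)
    _ = (∑ i ∈ I, Vt κ (Pyw g c1 x) (NwP g x) (N g - z g i)) * (C₀ * (7 / 4)) := by rw [sum_mul]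
    _ ≤ (1 / κ + 1) * (C₀ * (7 / 4)) := by
        refine mul_le_mul_of_nonneg_right (le_trans ?_ h4) hC
        exact sum_pos_le h.inj (F := fun a => Vt κ (Pyw g c1 x) (NwP g x) a)
          (fun i hi => mem_filter.2 ⟨NwP_of_Nw (h.nw i hi), hp i hi⟩) fun a _ => hV0 a

end Vale.P028.SK
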