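-- RD-BASE 23d5dd3e6a0c2f03db591eb69eafcffd023c0f80
import Vale.Agent.P028.MathlibUsed
import Vale.Agent.P028.RD.FQ.ConfTop
import Vale.Agent.P028.RD.H472.Num
attribute [-instance] ProperSMul.toContinuousSMul IsTopologicalTorsor.toContinuousSMul IdemSemiring.toCanonicallyOrderedAdd IdemSemiring.toMulLeftMono IdemSemiring.toMulRightMono AddQuantale.instAddLeftMono AddQuantale.instAddRightMono Quantale.instMulLeftMono Quantale.instMulRightMono FiniteDimensional.rclike_to_real IsScalarTower.complexToReal FiniteDimensional.complexToReal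

/-!
# The stages are sparse: few stages between `(log K) ^ (3 / 2)` and `exp (K ^ e)`
-/

namespace Vale.P028.SK

open Finset CF

variable {g : Cfg}

/-- the numerical condition -/
def SpN (C1 C2 b e K0 : ℝ) : Prop :=
  1 ≤ K0 ∧ (C1 * Real.log (C1 * Real.log (2 * K0 ^ e))) ^ (C1 * C2) ≤
    (Real.log (K0 ^ b)) ^ (3 / 2 : ℝ)

theorem exists_spN {C1 C2 b e : ℝ} (hC1 : 1 ≤ C1) (hC2 : 1 ≤ C2) (hb : 0 < b) (he : 0 < e) :
    ∃ Kst : ℝ, 1 ≤ Kst ∧ ∀ K0, Kst ≤ K0 → SpN C1 C2 b e K0 := by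
  -- `u = log K0`
  set A : ℝ := C1 * (1 + e) with hA
  have hA0 : 0 < A := by positivity
  have hlim : (fun u : ℝ => (Real.log u) ^ (C1 * C2)) =o[Filter.atTop] fun u => u ^ (1 : ℝ) :=
    isLittleO_log_rpow_rpow_atTop (C1 * C2) one_pos
  -- at the point `A u`
  set B : ℝ := b ^ (3 / 2 : ℝ) / (C1 ^ (C1 * C2) * A) with hB
  have hC1p : 0 < C1 := by linarith
  have hB0 : 0 < B := by positivity
  have h1 := hlim.bound hB0
  rw [Filter.eventually_atTop] at h1
  obtain ⟨U, hU⟩ := h1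
  refine ⟨Real.exp (max 1 (max (U / A) (Real.exp 1 / A))), Real.one_le_exp (by positivity), ?_⟩
  intro K0 hK0
  have hKp : 0 < K0 := lt_of_lt_of_le (Real.exp_pos _) hK0
  set u := Real.log K0 with hu
  have hu1 : max 1 (max (U / A) (Real.exp 1 / A)) ≤ u := by
    rw [hu, Real.le_log_iff_exp_le hKp]
    exact hK0
  rw [max_le_iff, max_le_iff, div_le_iff₀ hA0, div_le_iff₀ hA0] at hu1
  obtain ⟨hu1, huU, hue⟩ := hu1
  have hu0 : 0 < u := by linarith
  have hK1 : 1 ≤ K0 := by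
    by_contra hcon
    have := Real.log_nonpos hKp.le (not_le.1 hcon).le
    linarith
  refine ⟨hK1, ?_⟩
  have e1 : Real.log (2 * K0 ^ e) = Real.log 2 + e * u := by
    rw [Real.log_mul (by norm_num) (by positivity), Real.log_rpow hKp]
  have hl2 : Real.log 2 ≤ 1 := by
    have := Real.log_two_lt_d9
    linarith
  have hl2' : 0 < Real.log 2 := Real.log_pos one_lt_two
  have h2 : C1 * Real.log (2 * K0 ^ e) ≤ u * A := by
    rw [e1, hA]
    have h3 : Real.log 2 + e * u ≤ (1 + e) * u := by nlinarith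
    calc C1 * (Real.log 2 + e * u) ≤ C1 * ((1 + e) * u) := mul_le_mul_of_nonneg_left h3 hC1p.le
      _ = _ := by ring
  have h2' : 0 < C1 * Real.log (2 * K0 ^ e) := by
    rw [e1]
    positivity
  have h4 : Real.log (C1 * Real.log (2 * K0 ^ e)) ≤ Real.log (u * A) := Real.log_le_log h2' h2
  have h5 : 1 ≤ Real.log (u * A) := by
    rw [Real.le_log_iff_exp_le (by positivity)]
    exact hue
  have h6 := hU (u * A) huU
  rw [Real.rpow_one, Real.norm_of_nonneg (by positivity), Real.norm_of_nonneg (by positivity)] at h6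
  have hu3 : u ≤ u ^ (3 / 2 : ℝ) := by
    calc u = u ^ (1 : ℝ) := (Real.rpow_one u).symm
      _ ≤ _ := Real.rpow_le_rpow_of_exponent_le hu1 (by norm_num)
  have e3 : (Real.log (K0 ^ b)) ^ (3 / 2 : ℝ) = b ^ (3 / 2 : ℝ) * u ^ (3 / 2 : ℝ) := by
    rw [Real.log_rpow hKp, Real.mul_rpow hb.le hu0.le]
  rw [e3]
  rcases le_or_gt (C1 * Real.log (C1 * Real.log (2 * K0 ^ e))) 0 with hneg | hpos
  · -- the logarithm is at least `0`: `C1 log (2 K0 ^ e) ≥ log 2 + e u`, may be below `1`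
    rcases hneg.eq_or_lt with h0 | h0
    · rw [h0, Real.zero_rpow (by positivity)]
      positivity
    · -- bound the absolute value
      have h7 : |C1 * Real.log (C1 * Real.log (2 * K0 ^ e))| ≤ C1 * Real.log (u * A) := by
        rw [abs_of_neg h0]
        have h8 : -Real.log (C1 * Real.log (2 * K0 ^ e)) ≤ 1 := by
          have h9 : Real.exp (-1) ≤ C1 * Real.log (2 * K0 ^ e) := by
            have h10 : Real.exp (-1) ≤ 1 / 2 := by
              rw [Real.exp_neg, one_div]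
              have := Real.add_one_le_exp (1 : ℝ)
              exact inv_anti₀ (by norm_num) (by linarith)
            have h11 : (1 / 2 : ℝ) ≤ Real.log (2 * K0 ^ e) := by
              rw [e1]
              have := Real.log_two_gt_d9
              nlinarith [mul_pos he hu0]
            nlinarith
          have h12 := Real.log_le_log (Real.exp_pos _) h9
          rw [Real.log_exp] at h12
          linarith
        nlinarith
      calc (C1 * Real.log (C1 * Real.log (2 * K0 ^ e))) ^ (C1 * C2) ≤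
            |(C1 * Real.log (C1 * Real.log (2 * K0 ^ e))) ^ (C1 * C2)| := le_abs_self _
        _ ≤ |C1 * Real.log (C1 * Real.log (2 * K0 ^ e))| ^ (C1 * C2) := Real.abs_rpow_le_abs_rpow _ _
        _ ≤ (C1 * Real.log (u * A)) ^ (C1 * C2) :=
            Real.rpow_le_rpow (abs_nonneg _) h7 (by positivity)
        _ = C1 ^ (C1 * C2) * (Real.log (u * A)) ^ (C1 * C2) :=
            Real.mul_rpow hC1p.le (by linarith)
        _ ≤ C1 ^ (C1 * C2) * (B * (u * A)) := mul_le_mul_of_nonneg_left h6 (by positivity)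
        _ = b ^ (3 / 2 : ℝ) * u := by
            rw [hB]
            field_simp
        _ ≤ _ := mul_le_mul_of_nonneg_left hu3 (by positivity)
  · calc (C1 * Real.log (C1 * Real.log (2 * K0 ^ e))) ^ (C1 * C2) ≤
          (C1 * Real.log (u * A)) ^ (C1 * C2) :=
          Real.rpow_le_rpow hpos.le (mul_le_mul_of_nonneg_left h4 hC1p.le) (by positivity)
      _ = C1 ^ (C1 * C2) * (Real.log (u * A)) ^ (C1 * C2) :=
          Real.mul_rpow hC1p.le (by linarith)
      _ ≤ C1 ^ (C1 * C2) * (B * (u * A)) := mul_le_mul_of_nonneg_left h6 (by positivity)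
      _ = b ^ (3 / 2 : ℝ) * u := by
          rw [hB]
          field_simp
      _ ≤ _ := mul_le_mul_of_nonneg_left hu3 (by positivity)

/-- **The stages are sparse.** -/
theorem sparse_le (hJ : JsOK g.K g.Js) (hX : g.Js ≤ g.X) {b e K0 : ℝ}
    (hK : SpN g.K.C1 g.K.C2 b e K0) (he : 0 ≤ e) {σ₀ σ : ℕ} (h1 : 1 ≤ σ₀)
    (hz : (z g σ₀ : ℝ) ≤ Real.exp (K0 ^ e)) (hy : yK (zs g) (K0 ^ b) < z g (σ - 1)) :
    σ ≤ σ₀ + 3 := by
  by_contra hcon
  have hC1 := g.K.C1_ge
  have hC2 := g.K.C2_ge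
  have hC1p : 0 < g.K.C1 := by linarith
  have hC2p : 0 < g.K.C2 := by linarith
  obtain ⟨hK1, hK2⟩ := hK
  have hKe : 1 ≤ K0 ^ e := Real.one_le_rpow hK1 he
  have h3 : z g (σ - 1) ≤ z g (σ₀ + 3) := z_anti g (by omega)
  have hzs : zs g < z g (σ₀ + 3) := lt_of_le_of_lt (zs_le_yK _ _) (lt_of_lt_of_le hy h3)
  have hJs3 : g.Js < JJ g (σ₀ + 3) := by
    refine lt_of_le_of_ne (Js_le_JJ hJ hX _) fun h => ?_
    have : z g (σ₀ + 3) = zs g := by
      unfold z zs
      rw [← h, max_Js hJ]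
    omega
  have hJs2 : g.Js < JJ g (σ₀ + 2) := lt_of_lt_of_le hJs3 (JJ_anti g (by omega))
  have hJs1 : g.Js < JJ g (σ₀ + 1) := lt_of_lt_of_le hJs2 (JJ_anti g (by omega))
  have e1 : JJ g (σ₀ + 1) = (Real.log (JJ g σ₀)) ^ g.K.C1 := by
    have h4 := JJ_succ hJ hX h1
    rcases max_choice g.Js ((Real.log (JJ g σ₀)) ^ g.K.C1) with h5 | h5
    · rw [h5] at h4
      exact absurd h4 (ne_of_gt hJs1)
    · rw [h4, h5]
  have e2 : JJ g (σ₀ + 2) = (Real.log (JJ g (σ₀ + 1))) ^ g.K.C1 := by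
    have h4 := JJ_succ hJ hX (show 1 ≤ σ₀ + 1 by omega)
    rcases max_choice g.Js ((Real.log (JJ g (σ₀ + 1))) ^ g.K.C1) with h5 | h5
    · rw [h5] at h4
      exact absurd h4 (ne_of_gt hJs2)
    · rw [h4, h5]
  have e3 : JJ g (σ₀ + 3) = (Real.log (JJ g (σ₀ + 2))) ^ g.K.C1 := by
    have h4 := JJ_succ hJ hX (show 1 ≤ σ₀ + 2 by omega)
    rcases max_choice g.Js ((Real.log (JJ g (σ₀ + 2))) ^ g.K.C1) with h5 | h5
    · rw [h5] at h4
      exact absurd h4 (ne_of_gt hJs3)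
    · rw [h4, h5]
  have h4J := hJ.1
  have hp0 : 1 ≤ JJ g σ₀ := one_le_JJ g _
  have hp1 : 1 < JJ g (σ₀ + 1) := by linarith
  have hp2 : 1 < JJ g (σ₀ + 2) := by linarith
  have hp3 : 1 < JJ g (σ₀ + 3) := by linarith
  -- the first logarithm
  have a1 : Real.log (JJ g σ₀) ≤ 2 * K0 ^ e := by
    have h5 : JJ g σ₀ ≤ JJ g σ₀ ^ g.K.C2 := by
      calc JJ g σ₀ = JJ g σ₀ ^ (1 : ℝ) := (Real.rpow_one _).symm
        _ ≤ _ := Real.rpow_le_rpow_of_exponent_le hp0 hC2
    have h6 : JJ g σ₀ ^ g.K.C2 < z g σ₀ + 1 := by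
      unfold z
      exact Nat.lt_floor_add_one _
    have h7 : JJ g σ₀ ≤ Real.exp (2 * K0 ^ e) := by
      have h8 : Real.exp (K0 ^ e) + 1 ≤ Real.exp (2 * K0 ^ e) := by
        have h9 : Real.exp (2 * K0 ^ e) = Real.exp (K0 ^ e) * Real.exp (K0 ^ e) := by
          rw [← Real.exp_add]
          ring_nf
        have h10 : 2 ≤ Real.exp (K0 ^ e) := by
          have := Real.add_one_le_exp (K0 ^ e)
          linarith
        rw [h9]
        nlinarith
      linarith
    calc Real.log (JJ g σ₀) ≤ Real.log (Real.exp (2 * K0 ^ e)) :=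
          Real.log_le_log (by linarith) h7
      _ = _ := Real.log_exp _
  have a0 : 0 ≤ Real.log (JJ g σ₀) := Real.log_nonneg hp0
  -- the second logarithm
  have a2 : Real.log (JJ g (σ₀ + 1)) ≤ g.K.C1 * Real.log (2 * K0 ^ e) := by
    have h5 : 0 < Real.log (JJ g σ₀) := by
      rcases a0.eq_or_lt with h | h
      · rw [← h, Real.zero_rpow hC1p.ne'] at e1
        linarith
      · exact h
    rw [e1, Real.log_rpow h5]
    exact mul_le_mul_of_nonneg_left (Real.log_le_log h5 a1) hC1p.le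
  have b1 : 0 < Real.log (JJ g (σ₀ + 1)) := Real.log_pos hp1
  -- the third logarithm
  have a3 : Real.log (JJ g (σ₀ + 2)) ≤ g.K.C1 * Real.log (g.K.C1 * Real.log (2 * K0 ^ e)) := by
    rw [e2, Real.log_rpow b1]
    exact mul_le_mul_of_nonneg_left (Real.log_le_log b1 a2) hC1p.le
  have b2 : 0 < Real.log (JJ g (σ₀ + 2)) := Real.log_pos hp2
  have h10 : (z g (σ₀ + 3) : ℝ) ≤ (Real.log (K0 ^ b)) ^ (3 / 2 : ℝ) := by
    refine le_trans ?_ hK2
    have h11 : (z g (σ₀ + 3) : ℝ) ≤ JJ g (σ₀ + 3) ^ g.K.C2 := by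
      unfold z
      exact Nat.floor_le (Real.rpow_nonneg (by linarith) _)
    refine h11.trans ?_
    rw [e3, ← Real.rpow_mul b2.le]
    exact Real.rpow_le_rpow b2.le a3 (by positivity)
  have h12 := log_le_yK (zs g) (K0 ^ b)
  have h13 : (z g (σ₀ + 3) : ℝ) ≤ yK (zs g) (K0 ^ b) := h10.trans h12
  have h14 : z g (σ₀ + 3) ≤ yK (zs g) (K0 ^ b) := by exact_mod_cast h13
  omega

open Classical in
/-- the stages between the two bounds -/
noncomputable def StS (g : Cfg) (b e K0 : ℝ) : Finset ℕ :=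
  (Icc 1 (nst g + 1)).filter (fun σ => yK (zs g) (K0 ^ b) < z g (σ - 1) ∧
    (z g σ : ℝ) ≤ Real.exp (K0 ^ e))

theorem card_StS (hJ : JsOK g.K g.Js) (hX : g.Js ≤ g.X) {b e K0 : ℝ}
    (hK : SpN g.K.C1 g.K.C2 b e K0) (he : 0 ≤ e) : (StS g b e K0).card ≤ 4 := by
  classical
  rcases (StS g b e K0).eq_empty_or_nonempty with h0 | hne
  · rw [h0, card_empty]
    omega
  set m := (StS g b e K0).min' hne with hm
  have hm1 := min'_mem _ hne
  rw [← hm] at hm1
  have hm2 := mem_filter.1 (show m ∈ (Icc 1 (nst g + 1)).filter (fun σ =>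
    yK (zs g) (K0 ^ b) < z g (σ - 1) ∧ (z g σ : ℝ) ≤ Real.exp (K0 ^ e)) from hm1)
  have hsub : StS g b e K0 ⊆ Icc m (m + 3) := by
    intro σ hσ
    have h2 := mem_filter.1 (show σ ∈ (Icc 1 (nst g + 1)).filter (fun σ =>
      yK (zs g) (K0 ^ b) < z g (σ - 1) ∧ (z g σ : ℝ) ≤ Real.exp (K0 ^ e)) from hσ)
    exact mem_Icc.2 ⟨min'_le _ _ hσ,
      sparse_le hJ hX hK he (mem_Icc.1 hm2.1).1 hm2.2.2 h2.2.1⟩
  calc (StS g b e K0).card ≤ (Icc m (m + 3)).card := card_le_card hsub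
    _ = 4 := by rw [Nat.card_Icc]; omega

end Vale.P028.SK
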